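import Vale.Agent.P218S.Fin

/-! # Uniqueness of tangent flows up to and including the first singular time, with locally smooth
convergence

`N` is a closed connected surface and `F : [0, T) × N → ℝ³` is a smooth mean curvature flow which
starts at an embedding; `T` is arbitrary, in particular it may be the first singular time.
`(μ_t)` is any family of measures with `μ_t = ℋ² ⌞ F_t(N)` for `0 ≤ t < T` (for instance a weak
continuation of the flow). Then at every point `(x₀, t₀)` with `0 < t₀ ≤ T` the rescaled flows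
`μ^λ_s` converge weakly, as `λ → ∞`, for every `s < 0`, to `ℋ² ⌞ √(-s) S` for one smooth properly
embedded self-shrinker `S` (empty if and only if the flow does not reach the point), and this is the
only tangent flow at `(x₀, t₀)`, in the fixed coordinates of `ℝ³`. Moreover all `F_t` are
injective, and the rescaled surfaces `λ (F_{t₀ + s/λ²}(N) - x₀)` converge to `√(-s) S` locally
smoothly, with multiplicity one, on `ℝ³ × (-∞, 0)`, as `λ → ∞` (no subsequence). Nothing is assumed
about the type of the singularity, nor about the topology or the ends of `S`. -/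

open MeasureTheory Set Filter Topology
open scoped Manifold ContDiff

namespace Vale.Agent.Results.P218.AAFirstSmooth

open Vale.Agent.P218FS.St Vale.Agent.P218S.St

universe u

/-- Main theorem. -/
theorem result (N : Type u) [TopologicalSpace N] [T2Space N] [CompactSpace N] [ConnectedSpace N]
    [ChartedSpace R2 N] [IsManifold (𝓡 2) ∞ N] (F : ℝ → N → R3) (T : ℝ) (hF : IsSmoothMCF F T)
    (μ : ℝ → Measure R3) (hμ : ∀ t ∈ Ico 0 T, μ t = area (range (F t)))
    (x₀ : R3) (t₀ : ℝ) (h0 : 0 < t₀) (hT : t₀ ≤ T) :
    ∃ S : Set R3, IsShrinker S ∧ (S.Nonempty ↔ IsReached F x₀ t₀) ∧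
      IsTangentFlow μ x₀ t₀ (shrinkerFlow S) ∧
      (∀ s < 0, WeakTendsto atTop (fun lam : ℝ => rescaled μ x₀ t₀ lam s) (shrinkerFlow S s)) ∧
      (∀ ν : ℝ → Measure R3, IsTangentFlow μ x₀ t₀ ν → ∀ s < 0, ν s = shrinkerFlow S s) ∧
      (∀ t ∈ Ico 0 T, Function.Injective (F t)) ∧
      SmoothTendsto (rescaledSurface F x₀ t₀) (shrinkingSurface S) := by
  have hF' : Vale.Agent.P218FS.IsSmoothMCF F T := ⟨hF.smooth, hF.immersion, hF.embedding, hF.flow⟩
  obtain ⟨S, h1, ⟨h2, h3, h4, h5⟩, h6⟩ := Vale.Agent.P218S.final N F T hF' μ hμ x₀ t₀ h0 hT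
  exact ⟨S, ⟨h1.closed, h1.param⟩, h2, h3, h4, h5, fun t ht => hF'.injective ht, h6⟩

end Vale.Agent.Results.P218.AAFirstSmooth
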