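import Vale.Agent.P218S18.Fin
import Vale.Agent.P218R24.Core
import Vale.Agent.P218L.Fin

open MeasureTheory Set Metric
open Vale.Agent.P218 Vale.Agent.P218G.St Vale.Agent.P218S18.St Vale.Agent.P218R24.St
  Vale.Agent.P218L.St

/-- **Uniqueness of tangent flows for weak mean curvature flows of surfaces, with locally smooth
convergence of multiplicity one.** -/
theorem Vale.Agent.Results.P218.AAWeakCones.result
    (μ : ℝ → Measure (EuclideanSpace ℝ (Fin 3))) (hμ : IsIntegralBrakkeFlow 2 μ)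
    (hU : IsUnitRegular μ) (hR : ∃ R : ℝ, μ 0 (closedBall 0 R)ᶜ = 0)
    (x₀ : EuclideanSpace ℝ (Fin 3)) (t₀ : ℝ) (ht : 0 < t₀)
    (h : (∃ a < t₀, ∀ t ∈ Ioo a t₀, IsRegularTime μ t) ∨
      IsAlmostRegularAt μ x₀ t₀ ∨
      (∃ S, IsSelfShrinker S ∧ (HasFiniteGenus S ∨ BddGeom S) ∧ hm S ∈ tangentSlices 2 μ x₀ t₀) ∨
      (IsCyclic μ ∧ ∃ r : ℝ, 0 < r ∧ r ^ 2 ≤ t₀ ∧ densityRatio 2 μ x₀ t₀ r < 2 * planeDensity) ∨
      (IsCyclic μ ∧ ∃ κ ∈ tangentSlices 2 μ x₀ t₀, ConesBelow κ 2)) :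
    TangentFlowUnique 2 μ x₀ t₀ ∧
      ∃ S, IsSelfShrinker S ∧ ConvergesTo μ x₀ t₀ S ∧ SmoothlyTo μ x₀ t₀ S := by
  have key := Vale.Agent.P218G.St.final μ hμ hU hR x₀ t₀ ht
  obtain ⟨h1, S, h2, h3⟩ : TangentFlowUnique 2 μ x₀ t₀ ∧
      ∃ S, IsSelfShrinker S ∧ ConvergesTo μ x₀ t₀ S := by
    rcases h with h | h | h | h | ⟨hc, κ, hκ, H⟩
    · exact key (Or.inl h)
    · exact Vale.Agent.P218L.concl hμ hU hR ht h
    · exact key (Or.inr (Or.inr (Or.inl h)))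
    · exact key (Or.inr (Or.inr (Or.inr h)))
    · obtain ⟨S, a1, a2, a3⟩ := Vale.Agent.P218R24.case_two hμ hU hR x₀ t₀ ht
        ⟨κ, hκ, Or.inl ⟨hc, H⟩⟩
      exact key (Or.inr (Or.inr (Or.inl ⟨S, a1, Or.inr a2, a3⟩)))
  exact ⟨h1, S, h2, h3, Vale.Agent.P218S18.smoothlyTo hμ hU hR ht h2 h3⟩
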